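import Mathlib

/-! Quotient of a unital C⋆-algebra by a closed two-sided ideal (universe polymorphic copy of
`Crest.Agent.R137.Quotient`). -/

set_option autoImplicit false
set_option linter.style.haveILetI false

universe u

namespace Crest.Agent.R110

namespace Quotient

variable {D : Type u} [CStarAlgebra D]

/-- Local approximate unit: for `j` in a left ideal there is a self-adjoint contraction `f`
with `1 - f` in the ideal and `j * f` small. -/
theorem exists_approx (I : Ideal D) {j : D} (hj : j ∈ I) {δ : ℝ} (hδ : 0 < δ) :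
    ∃ f : D, star f = f ∧ ‖f‖ ≤ 1 ∧ 1 - f ∈ I ∧ ‖j * f‖ * ‖j * f‖ ≤ δ := by
  set a : D := star j * j with ha
  have hsa : IsSelfAdjoint a := IsSelfAdjoint.star_mul_self j
  have hspec : ∀ t ∈ spectrum ℝ a, 0 ≤ t := fun t ht => spectrum_star_mul_self_nonneg t ht
  have hne : ∀ t ∈ spectrum ℝ a, δ + t ≠ 0 := fun t ht => by
    have := hspec t ht; positivity
  have hc1 : ContinuousOn (fun t : ℝ => δ / (δ + t)) (spectrum ℝ a) :=
    continuousOn_const.div (by fun_prop) hne
  have hc2 : ContinuousOn (fun t : ℝ => 1 / (δ + t)) (spectrum ℝ a) :=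
    continuousOn_const.div (by fun_prop) hne
  refine ⟨cfc (fun t : ℝ => δ / (δ + t)) a, ?_, ?_, ?_, ?_⟩
  · exact (cfc_predicate (R := ℝ) _ a : IsSelfAdjoint _)
  · refine norm_cfc_le zero_le_one fun t ht => ?_
    have h0 := hspec t ht
    rw [Real.norm_eq_abs, abs_of_nonneg (by positivity), div_le_one (by positivity)]
    linarith
  · have h1 : (1 : D) - cfc (fun t : ℝ => δ / (δ + t)) a
        = cfc (fun t : ℝ => 1 / (δ + t)) a * a := by
      have e1 : cfc (fun t : ℝ => 1 / (δ + t)) a * a = cfc (fun t : ℝ => 1 / (δ + t) * t) a := by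
        rw [cfc_mul _ _ a hc2 (by fun_prop), cfc_id' ℝ a]
      have e2 : (1 : D) - cfc (fun t : ℝ => δ / (δ + t)) a
          = cfc (fun t : ℝ => 1 - δ / (δ + t)) a := by
        rw [cfc_sub _ _ a (by fun_prop) hc1, cfc_const_one ℝ a]
      rw [e1, e2]
      refine cfc_congr fun t ht => ?_
      have := hne t ht
      field_simp
      ring
    rw [h1]
    exact I.mul_mem_left _ (I.mul_mem_left _ hj)
  · set f : D := cfc (fun t : ℝ => δ / (δ + t)) a with hf
    have hfs : star f = f := (cfc_predicate (R := ℝ) _ a : IsSelfAdjoint _)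
    rw [← CStarRing.norm_star_mul_self]
    have e : star (j * f) * (j * f) = cfc (fun t : ℝ => δ / (δ + t) * t * (δ / (δ + t))) a := by
      have hc3 : ContinuousOn (fun t : ℝ => δ / (δ + t) * t) (spectrum ℝ a) :=
        hc1.mul continuousOn_id
      rw [cfc_mul (fun t : ℝ => δ / (δ + t) * t) _ a hc3 hc1, cfc_mul _ _ a hc1 (by fun_prop),
        cfc_id' ℝ a, star_mul, hfs, ← hf, ha]
      simp only [mul_assoc]
    rw [e]
    refine norm_cfc_le hδ.le fun t ht => ?_
    have h0 := hspec t ht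
    rw [Real.norm_eq_abs, abs_of_nonneg (by positivity)]
    have h2 : δ / (δ + t) ≤ 1 := by
      rw [div_le_one (by positivity)]; linarith
    have h3 : δ / (δ + t) * t ≤ δ := by
      rw [div_mul_eq_mul_div, div_le_iff₀ (by positivity)]; nlinarith
    calc δ / (δ + t) * t * (δ / (δ + t)) ≤ δ * 1 := by gcongr
      _ = δ := mul_one δ

theorem norm_mk_lt (I : Ideal D) [I.IsTwoSided] (x : D ⧸ I) {ε : ℝ} (hε : 0 < ε) :
    ∃ r : D, Ideal.Quotient.mk I r = x ∧ ‖r‖ < ‖x‖ + ε :=
  Submodule.Quotient.norm_mk_lt (S := I) x hε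

theorem norm_mk_le (I : Ideal D) [I.IsTwoSided] (r : D) : ‖Ideal.Quotient.mk I r‖ ≤ ‖r‖ :=
  Submodule.Quotient.norm_mk_le I r

/-- The quotient norm is submultiplicative. -/
theorem norm_mul_le' (I : Ideal D) [I.IsTwoSided] (x y : D ⧸ I) : ‖x * y‖ ≤ ‖x‖ * ‖y‖ :=
  le_of_forall_pos_le_add fun ε hε => by
    have := ((Metric.nhds_basis_ball.prod_nhds Metric.nhds_basis_ball).tendsto_iff
      Metric.nhds_basis_ball).mp (continuous_mul.tendsto (‖x‖, ‖y‖)) ε hε
    simp only [Set.mem_prod, Metric.mem_ball, and_imp, Prod.forall, Prod.exists] at this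
    rcases this with ⟨ε₁, ε₂, ⟨h₁, h₂⟩, h⟩
    obtain ⟨⟨a, rfl, ha⟩, ⟨b, rfl, hb⟩⟩ := norm_mk_lt I x h₁, norm_mk_lt I y h₂
    simp only [dist, abs_sub_lt_iff] at h
    specialize h ‖a‖ ‖b‖ ⟨by linarith, by linarith [norm_mk_le I a]⟩
      ⟨by linarith, by linarith [norm_mk_le I b]⟩
    calc
      _ ≤ ‖a‖ * ‖b‖ := (norm_mk_le I (a * b)).trans (norm_mul_le a b)
      _ ≤ _ := (sub_lt_iff_lt_add'.mp h.1).le

/-- The C⋆-inequality for the quotient norm. -/
theorem norm_mk_mul_self_le (I : Ideal D) [I.IsTwoSided] (x : D) :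
    ‖Ideal.Quotient.mk I x‖ * ‖Ideal.Quotient.mk I x‖ ≤ ‖Ideal.Quotient.mk I (star x * x)‖ := by
  refine le_of_forall_pos_le_add fun ε hε => ?_
  obtain ⟨m, hm, hlt⟩ := norm_mk_lt I (Ideal.Quotient.mk I (star x * x)) (half_pos hε)
  have hj : star x * x - m ∈ I := Ideal.Quotient.eq.mp hm.symm
  obtain ⟨f, hfs, hf1, hfI, hjf⟩ := exists_approx I hj (δ := (ε / 2) * (ε / 2)) (by positivity)
  have hjf' : ‖(star x * x - m) * f‖ ≤ ε / 2 := by
    by_contra hcon
    push Not at hcon
    nlinarith [norm_nonneg ((star x * x - m) * f)]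
  have h1 : Ideal.Quotient.mk I x = Ideal.Quotient.mk I (x * f) := by
    rw [Ideal.Quotient.eq]
    have : x - x * f = x * (1 - f) := by noncomm_ring
    rw [this]
    exact I.mul_mem_left _ hfI
  have h2 : ‖Ideal.Quotient.mk I x‖ ≤ ‖x * f‖ := h1 ▸ norm_mk_le I _
  have h3 : ‖x * f‖ * ‖x * f‖ = ‖f * (m * f) + f * ((star x * x - m) * f)‖ := by
    rw [← CStarRing.norm_star_mul_self, star_mul, hfs]
    congr 1
    noncomm_ring
  have h4 : ‖f * (m * f)‖ ≤ ‖m‖ := by
    calc ‖f * (m * f)‖ ≤ ‖f‖ * (‖m‖ * ‖f‖) := by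
          refine (norm_mul_le _ _).trans ?_
          gcongr
          exact norm_mul_le _ _
      _ ≤ 1 * (‖m‖ * 1) := by gcongr
      _ = ‖m‖ := by ring
  have h5 : ‖f * ((star x * x - m) * f)‖ ≤ ε / 2 := by
    calc ‖f * ((star x * x - m) * f)‖ ≤ ‖f‖ * ‖(star x * x - m) * f‖ := norm_mul_le _ _
      _ ≤ 1 * (ε / 2) := by gcongr
      _ = ε / 2 := one_mul _
  calc ‖Ideal.Quotient.mk I x‖ * ‖Ideal.Quotient.mk I x‖ ≤ ‖x * f‖ * ‖x * f‖ := by gcongr
    _ ≤ ‖f * (m * f)‖ + ‖f * ((star x * x - m) * f)‖ := h3 ▸ norm_add_le _ _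
    _ ≤ _ := by linarith

/-- The involution on the quotient by a self-adjoint ideal. -/
def qstar (I : Ideal D) [I.IsTwoSided] (hI : ∀ x ∈ I, star x ∈ I) : D ⧸ I → D ⧸ I :=
  Quotient.map' star fun a b h => by
    rw [Submodule.quotientRel_def] at h ⊢
    rw [← star_sub]
    exact hI _ h

theorem qstar_mk (I : Ideal D) [I.IsTwoSided] (hI : ∀ x ∈ I, star x ∈ I) (x : D) :
    qstar I hI (Ideal.Quotient.mk I x) = Ideal.Quotient.mk I (star x) := rfl

theorem exists_quotient_closed (I : Ideal D) [I.IsTwoSided] [hc : IsClosed (I : Set D)]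
    (hI : ∀ x ∈ I, star x ∈ I) :
    ∃ (B : Type u) (_ : CStarAlgebra B) (π : D →⋆ₐ[ℂ] B), Function.Surjective π ∧
      ∀ x, π x = 0 ↔ x ∈ I := by
  letI nr : NormedRing (D ⧸ I) :=
    { Ideal.Quotient.ring I, Submodule.Quotient.normedAddCommGroup I with
      dist_eq := dist_eq_norm_neg_add
      norm_mul_le := norm_mul_le' I }
  letI na : NormedAlgebra ℂ (D ⧸ I) :=
    { Submodule.Quotient.normedSpace I ℂ, Ideal.Quotient.algebra ℂ with }
  letI sr : StarRing (D ⧸ I) :=
    { star := qstar I hI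
      star_involutive := fun x => by
        obtain ⟨a, rfl⟩ := Ideal.Quotient.mk_surjective x
        rw [qstar_mk, qstar_mk, star_star]
      star_mul := fun x y => by
        obtain ⟨a, rfl⟩ := Ideal.Quotient.mk_surjective x
        obtain ⟨b, rfl⟩ := Ideal.Quotient.mk_surjective y
        rw [← map_mul, qstar_mk, qstar_mk, qstar_mk, star_mul, map_mul]
      star_add := fun x y => by
        obtain ⟨a, rfl⟩ := Ideal.Quotient.mk_surjective x
        obtain ⟨b, rfl⟩ := Ideal.Quotient.mk_surjective y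
        rw [← map_add, qstar_mk, qstar_mk, qstar_mk, star_add, map_add] }
  have hstar : ∀ a : D, star (Ideal.Quotient.mk I a) = Ideal.Quotient.mk I (star a) :=
    fun _ => rfl
  haveI sm : StarModule ℂ (D ⧸ I) :=
    ⟨fun c x => by
      obtain ⟨a, rfl⟩ := Ideal.Quotient.mk_surjective x
      have e : ∀ (c : ℂ) (a : D), c • Ideal.Quotient.mk I a = Ideal.Quotient.mk I (c • a) :=
        fun _ _ => rfl
      rw [e, hstar, hstar, e, star_smul]⟩
  haveI cs : CStarRing (D ⧸ I) :=
    ⟨fun x => by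
      obtain ⟨a, rfl⟩ := Ideal.Quotient.mk_surjective x
      rw [hstar, ← map_mul]
      exact norm_mk_mul_self_le I a⟩
  haveI cp : CompleteSpace (D ⧸ I) := Submodule.Quotient.completeSpace I
  letI B : CStarAlgebra (D ⧸ I) := { nr, sr, cp, cs, na, sm with }
  refine ⟨D ⧸ I, B, { Ideal.Quotient.mkₐ ℂ I with map_star' := fun a => (hstar a).symm },
    Ideal.Quotient.mk_surjective, fun x => Ideal.Quotient.eq_zero_iff_mem⟩

/-- closed two-sided ideals are self-adjoint -/
theorem star_mem (I : Ideal D) [I.IsTwoSided] (hc : IsClosed (I : Set D)) {x : D} (hx : x ∈ I) :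
    star x ∈ I := by
  have : star x ∈ closure (I : Set D) := by
    rw [Metric.mem_closure_iff]
    intro ε hε
    obtain ⟨f, hfs, -, hfI, hf⟩ := exists_approx I hx (δ := (ε / 2) * (ε / 2)) (by positivity)
    refine ⟨(1 - f) * star x, I.mul_mem_right _ hfI, ?_⟩
    have e : star x - (1 - f) * star x = star (x * f) := by rw [star_mul, hfs]; noncomm_ring
    rw [dist_eq_norm, e, norm_star]
    nlinarith [norm_nonneg (x * f)]
  rwa [hc.closure_eq] at this

end Quotient

theorem exists_quotient {D : Type u} [CStarAlgebra D] (I : Ideal D) [I.IsTwoSided]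
    (hc : IsClosed (I : Set D)) :
    ∃ (B : Type u) (_ : CStarAlgebra B) (_ : PartialOrder B) (_ : StarOrderedRing B)
      (π : D →⋆ₐ[ℂ] B), Function.Surjective π ∧ ∀ x, π x = 0 ↔ x ∈ I := by
  obtain ⟨B, hB, π, h1, h2⟩ :=
    Quotient.exists_quotient_closed I (hc := hc) fun x hx => Quotient.star_mem I hc hx
  exact ⟨B, hB, CStarAlgebra.spectralOrder B, CStarAlgebra.spectralOrderedRing B, π, h1, h2⟩

end Crest.Agent.R110
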